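import Vale.Agent.Lib.P249.helper40.GridPairOf
import Vale.Agent.Lib.P249.helper95.GridOne
import Vale.Agent.Lib.P249.helper5.Tensor

/-!
# P249 grid lower bound, job GRID-E: pair form of the grid concentration

`grid_pair` is the tensorised one-coordinate inequality `grid_one`, applied to
`a = exp (-f)`, `b = exp g`, `N = 1`.
-/

namespace Vale.Agent.Lib.P249.H40

open Finset
open Vale.Agent.Lib.P249.H62

theorem grid_pair (M : ℕ) (hM : 1 ≤ M) (k : ℕ) (f g : (Fin k → Fin (2 * M + 1)) → ℝ)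
    (h : ∀ x y, g x ≤ f y + gdist2 M k x y / (2 * (M : ℝ) ^ 2)) :
    (∑ x, gPhi M k x * Real.exp (g x)) * (∑ y, gPhi M k y * Real.exp (-f y))
      ≤ (gZ M + 1) ^ (2 * k) :=
  grid_pair_of M k
    (fun a b N ha hb hN h' => Vale.Agent.Lib.P249.H95.PL.grid_one M hM a b N ha hb hN h')
    (fun h1 => Vale.Agent.Lib.P249.H5t.tensor (gphi M) (fun t => (Real.exp_pos _).le)
      (fun t t' => (gv M t - gv M t') ^ 2 / (2 * (M : ℝ) ^ 2)) ((gZ M + 1) ^ 2)
      (by positivity) h1 k) f g h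

end Vale.Agent.Lib.P249.H40
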