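import Vale.Agent.Lib.P249.helper62.GridDefs

namespace Vale.Agent.Lib.P249.H40

open Finset
open Vale.Agent.Lib.P249.H62

/-- pair form of the grid concentration, with the one-coordinate inequality and the
tensorisation step passed in as hypotheses -/
theorem grid_pair_of (M : ℕ) (k : ℕ)
    (grid_one : ∀ (a b : Fin (2 * M + 1) → ℝ) (N : ℝ),
      (∀ t, 0 ≤ a t) → (∀ t, 0 ≤ b t) → 0 ≤ N →
      (∀ t t', b t * a t' ≤ N * Real.exp ((gv M t - gv M t') ^ 2 / (2 * (M : ℝ) ^ 2))) →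
      (∑ t, gphi M t * b t) * (∑ t, gphi M t * a t) ≤ N * (gZ M + 1) ^ 2)
    (tensor : (∀ (a b : Fin (2 * M + 1) → ℝ) (N : ℝ),
        (∀ t, 0 ≤ a t) → (∀ t, 0 ≤ b t) → 0 ≤ N →
        (∀ t t', b t * a t' ≤
          N * Real.exp ((gv M t - gv M t') ^ 2 / (2 * (M : ℝ) ^ 2))) →
        (∑ t, gphi M t * b t) * (∑ t, gphi M t * a t) ≤ N * (gZ M + 1) ^ 2) →
      ∀ (a b : (Fin k → Fin (2 * M + 1)) → ℝ) (N : ℝ),
        (∀ x, 0 ≤ a x) → (∀ x, 0 ≤ b x) → 0 ≤ N →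
        (∀ x y, b x * a y ≤ N * Real.exp
          (∑ j, (gv M (x j) - gv M (y j)) ^ 2 / (2 * (M : ℝ) ^ 2))) →
        (∑ x, (∏ j, gphi M (x j)) * b x) * (∑ y, (∏ j, gphi M (y j)) * a y)
          ≤ N * ((gZ M + 1) ^ 2) ^ k)
    (f g : (Fin k → Fin (2 * M + 1)) → ℝ)
    (h : ∀ x y, g x ≤ f y + gdist2 M k x y / (2 * (M : ℝ) ^ 2)) :
    (∑ x, gPhi M k x * Real.exp (g x)) * (∑ y, gPhi M k y * Real.exp (-f y))
      ≤ (gZ M + 1) ^ (2 * k) := by
  have key := tensor grid_one (fun y => Real.exp (-f y)) (fun x => Real.exp (g x)) 1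
    (fun y => (Real.exp_pos _).le) (fun x => (Real.exp_pos _).le) zero_le_one
    (by
      intro x y
      rw [one_mul, ← Real.exp_add]
      apply Real.exp_le_exp.mpr
      have hxy := h x y
      have hd : gdist2 M k x y / (2 * (M : ℝ) ^ 2)
          = ∑ j, (gv M (x j) - gv M (y j)) ^ 2 / (2 * (M : ℝ) ^ 2) := by
        unfold gdist2
        rw [Finset.sum_div]
      rw [← hd]
      linarith)
  rw [one_mul, ← pow_mul] at key
  exact key

end Vale.Agent.Lib.P249.H40
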